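import Mathlib

/-!
# Row 211 / B3a: packing count for lattice tiles in the Euclidean plane (helper8)

* `volume_box_mul`, `volume_box` : volume of a half-open axis-parallel box in `EuclideanSpace ℝ (Fin 2)`.
* `volume_box_Icc_mul` : closed boxes.
* `packing_count` : at most `(hi 0 - lo 0 + 4δ)(hi 1 - lo 1 + 4δ)/δ²` points of a rotated
  `δ`-lattice lie in the box `∏ [lo m, hi m]`.
-/

set_option autoImplicit false

open MeasureTheory

namespace Crest.Agent.Helper8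

/-- volume of a half-open axis-parallel box in the Euclidean plane, product form (no hypotheses) -/
theorem volume_box_mul (lo hi : Fin 2 → ℝ) :
    volume {q : EuclideanSpace ℝ (Fin 2) | ∀ m, q m ∈ Set.Ico (lo m) (hi m)} =
      ENNReal.ofReal (hi 0 - lo 0) * ENNReal.ofReal (hi 1 - lo 1) := by
  have hmp := PiLp.volume_preserving_ofLp (Fin 2)
  have hset : {q : EuclideanSpace ℝ (Fin 2) | ∀ m, q m ∈ Set.Ico (lo m) (hi m)} =
      (WithLp.ofLp : EuclideanSpace ℝ (Fin 2) → (Fin 2 → ℝ)) ⁻¹'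
        (Set.pi Set.univ fun m => Set.Ico (lo m) (hi m)) := by
    ext q; simp
  rw [hset, hmp.measure_preimage
    (MeasurableSet.univ_pi fun m => measurableSet_Ico).nullMeasurableSet,
    Real.volume_pi_Ico, Fin.prod_univ_two]

/-- volume of a closed axis-parallel box in the Euclidean plane, product form -/
theorem volume_box_Icc_mul (lo hi : Fin 2 → ℝ) :
    volume {q : EuclideanSpace ℝ (Fin 2) | ∀ m, q m ∈ Set.Icc (lo m) (hi m)} =
      ENNReal.ofReal (hi 0 - lo 0) * ENNReal.ofReal (hi 1 - lo 1) := by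
  have hmp := PiLp.volume_preserving_ofLp (Fin 2)
  have hset : {q : EuclideanSpace ℝ (Fin 2) | ∀ m, q m ∈ Set.Icc (lo m) (hi m)} =
      (WithLp.ofLp : EuclideanSpace ℝ (Fin 2) → (Fin 2 → ℝ)) ⁻¹' (Set.Icc lo hi) := by
    ext q
    simp only [Set.mem_ofPred_eq, Set.mem_preimage, Set.mem_Icc, Pi.le_def]
    exact ⟨fun h => ⟨fun m => (h m).1, fun m => (h m).2⟩, fun h m => ⟨h.1 m, h.2 m⟩⟩
  rw [hset, hmp.measure_preimage measurableSet_Icc.nullMeasurableSet,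
    Real.volume_Icc_pi, Fin.prod_univ_two]

/-- volume of a half-open axis-parallel box in the Euclidean plane.  (The hypothesis `lo 0 ≤ hi 0`
is needed: for `hi 0 < lo 0` and `hi 1 < lo 1` the set is empty but the product is positive.) -/
theorem volume_box (lo hi : Fin 2 → ℝ) (h0 : lo 0 ≤ hi 0) :
    volume {q : EuclideanSpace ℝ (Fin 2) | ∀ m, q m ∈ Set.Ico (lo m) (hi m)} =
      ENNReal.ofReal ((hi 0 - lo 0) * (hi 1 - lo 1)) := by
  rw [volume_box_mul, ENNReal.ofReal_mul (sub_nonneg.mpr h0)]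

lemma measurableSet_box_Ico (lo hi : Fin 2 → ℝ) :
    MeasurableSet {q : EuclideanSpace ℝ (Fin 2) | ∀ m, q m ∈ Set.Ico (lo m) (hi m)} := by
  have hset : {q : EuclideanSpace ℝ (Fin 2) | ∀ m, q m ∈ Set.Ico (lo m) (hi m)} =
      (WithLp.ofLp : EuclideanSpace ℝ (Fin 2) → (Fin 2 → ℝ)) ⁻¹'
        (Set.pi Set.univ fun m => Set.Ico (lo m) (hi m)) := by
    ext q; simp
  rw [hset]
  exact (PiLp.volume_preserving_ofLp (Fin 2)).measurable
    (MeasurableSet.univ_pi fun m => measurableSet_Ico)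

/-- the half-open core tile of the lattice point `(i, j)` -/
def tile (b : OrthonormalBasis (Fin 2) ℝ (EuclideanSpace ℝ (Fin 2)))
    (p₀ : EuclideanSpace ℝ (Fin 2)) (δ : ℝ) (ij : ℤ × ℤ) : Set (EuclideanSpace ℝ (Fin 2)) :=
  (fun q => b.repr (q - p₀)) ⁻¹'
    {v : EuclideanSpace ℝ (Fin 2) | ∀ m, v m ∈
      Set.Ico ((![δ * (ij.1 : ℝ), δ * (ij.2 : ℝ)] : Fin 2 → ℝ) m)
        ((![δ * ((ij.1 : ℝ) + 1), δ * ((ij.2 : ℝ) + 1)] : Fin 2 → ℝ) m)}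

lemma mp_repr_sub (b : OrthonormalBasis (Fin 2) ℝ (EuclideanSpace ℝ (Fin 2)))
    (p₀ : EuclideanSpace ℝ (Fin 2)) :
    MeasurePreserving (fun q : EuclideanSpace ℝ (Fin 2) => b.repr (q - p₀)) volume volume :=
  b.measurePreserving_repr.comp (measurePreserving_sub_right volume p₀)

lemma measurableSet_tile (b : OrthonormalBasis (Fin 2) ℝ (EuclideanSpace ℝ (Fin 2)))
    (p₀ : EuclideanSpace ℝ (Fin 2)) (δ : ℝ) (ij : ℤ × ℤ) : MeasurableSet (tile b p₀ δ ij) :=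
  (mp_repr_sub b p₀).measurable (measurableSet_box_Ico _ _)

lemma volume_tile (b : OrthonormalBasis (Fin 2) ℝ (EuclideanSpace ℝ (Fin 2)))
    (p₀ : EuclideanSpace ℝ (Fin 2)) (δ : ℝ) (ij : ℤ × ℤ) :
    volume (tile b p₀ δ ij) = ENNReal.ofReal δ * ENNReal.ofReal δ := by
  unfold tile
  rw [(mp_repr_sub b p₀).measure_preimage (measurableSet_box_Ico _ _).nullMeasurableSet,
    volume_box_mul]
  congr 1 <;> · congr 1; simp; ring

lemma mem_tile_iff (b : OrthonormalBasis (Fin 2) ℝ (EuclideanSpace ℝ (Fin 2)))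
    (p₀ : EuclideanSpace ℝ (Fin 2)) (δ : ℝ) (ij : ℤ × ℤ) (q : EuclideanSpace ℝ (Fin 2)) :
    q ∈ tile b p₀ δ ij ↔
      (δ * (ij.1 : ℝ) ≤ b.repr (q - p₀) 0 ∧ b.repr (q - p₀) 0 < δ * ((ij.1 : ℝ) + 1)) ∧
      (δ * (ij.2 : ℝ) ≤ b.repr (q - p₀) 1 ∧ b.repr (q - p₀) 1 < δ * ((ij.2 : ℝ) + 1)) := by
  unfold tile
  simp [Fin.forall_fin_two]

lemma tile_disjoint (b : OrthonormalBasis (Fin 2) ℝ (EuclideanSpace ℝ (Fin 2)))
    (p₀ : EuclideanSpace ℝ (Fin 2)) (δ : ℝ) (hδ : 0 < δ) (ij ij' : ℤ × ℤ) (hne : ij ≠ ij') :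
    Disjoint (tile b p₀ δ ij) (tile b p₀ δ ij') := by
  rw [Set.disjoint_left]
  intro q hq hq'
  rw [mem_tile_iff] at hq hq'
  obtain ⟨⟨h1, h2⟩, ⟨h3, h4⟩⟩ := hq
  obtain ⟨⟨h1', h2'⟩, ⟨h3', h4'⟩⟩ := hq'
  have key : ∀ (i i' : ℤ) (x : ℝ), δ * (i : ℝ) ≤ x → x < δ * ((i' : ℝ) + 1) → i ≤ i' := by
    intro i i' x hx hx'
    have h : δ * (i : ℝ) < δ * ((i' : ℝ) + 1) := lt_of_le_of_lt hx hx'
    have h' : (i : ℝ) < (i' : ℝ) + 1 := lt_of_mul_lt_mul_left h hδ.le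
    have h'' : (i : ℝ) < ((i' + 1 : ℤ) : ℝ) := by push_cast; exact h'
    have := Int.cast_lt.mp h''
    omega
  apply hne
  apply Prod.ext
  · exact le_antisymm (key _ _ _ h1 h2') (key _ _ _ h1' h2)
  · exact le_antisymm (key _ _ _ h3 h4') (key _ _ _ h3' h4)

lemma abs_coord_le_one (b : OrthonormalBasis (Fin 2) ℝ (EuclideanSpace ℝ (Fin 2)))
    (k m : Fin 2) : |b k m| ≤ 1 := by
  have h1 : ‖b k m‖ ≤ ‖b k‖ := PiLp.norm_apply_le (b k) m
  rw [b.norm_eq_one, Real.norm_eq_abs] at h1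
  exact h1

lemma tile_subset (b : OrthonormalBasis (Fin 2) ℝ (EuclideanSpace ℝ (Fin 2)))
    (p₀ : EuclideanSpace ℝ (Fin 2)) (δ : ℝ) (hδ : 0 < δ) (lo hi : Fin 2 → ℝ) (ij : ℤ × ℤ)
    (hc : ∀ m : Fin 2, (p₀ + (δ * (ij.1 : ℝ)) • b 0 + (δ * (ij.2 : ℝ)) • b 1) m ∈
      Set.Icc (lo m) (hi m)) :
    tile b p₀ δ ij ⊆ {q : EuclideanSpace ℝ (Fin 2) | ∀ m, q m ∈
      Set.Icc (lo m - 2 * δ) (hi m + 2 * δ)} := by
  intro q hq m
  rw [mem_tile_iff] at hq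
  obtain ⟨⟨h1, h2⟩, ⟨h3, h4⟩⟩ := hq
  set x0 := b.repr (q - p₀) 0 with hx0
  set x1 := b.repr (q - p₀) 1 with hx1
  have hsum : q - p₀ = x0 • b 0 + x1 • b 1 := by
    have := b.sum_repr (q - p₀)
    rw [Fin.sum_univ_two] at this
    exact this.symm
  have hq' : q = p₀ + x0 • b 0 + x1 • b 1 := by
    rw [add_assoc, ← hsum]; abel
  have hqm : q m = (p₀ + (δ * (ij.1 : ℝ)) • b 0 + (δ * (ij.2 : ℝ)) • b 1) m +
      ((x0 - δ * (ij.1 : ℝ)) * b 0 m + (x1 - δ * (ij.2 : ℝ)) * b 1 m) := by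
    conv_lhs => rw [hq']
    simp only [PiLp.add_apply, PiLp.smul_apply, smul_eq_mul]
    ring
  have hb0 := abs_coord_le_one b 0 m
  have hb1 := abs_coord_le_one b 1 m
  have ha0 : 0 ≤ x0 - δ * (ij.1 : ℝ) := by linarith
  have ha0' : x0 - δ * (ij.1 : ℝ) ≤ δ := by linarith
  have ha1 : 0 ≤ x1 - δ * (ij.2 : ℝ) := by linarith
  have ha1' : x1 - δ * (ij.2 : ℝ) ≤ δ := by linarith
  have e0 : |(x0 - δ * (ij.1 : ℝ)) * b 0 m| ≤ δ := by
    rw [abs_mul, abs_of_nonneg ha0]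
    calc (x0 - δ * (ij.1 : ℝ)) * |b 0 m| ≤ δ * 1 :=
          mul_le_mul ha0' hb0 (abs_nonneg _) hδ.le
      _ = δ := mul_one δ
  have e1 : |(x1 - δ * (ij.2 : ℝ)) * b 1 m| ≤ δ := by
    rw [abs_mul, abs_of_nonneg ha1]
    calc (x1 - δ * (ij.2 : ℝ)) * |b 1 m| ≤ δ * 1 :=
          mul_le_mul ha1' hb1 (abs_nonneg _) hδ.le
      _ = δ := mul_one δ
  have hcm := hc m
  rw [Set.mem_Icc] at hcm ⊢
  rw [hqm]
  have := abs_le.mp e0
  have := abs_le.mp e1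
  constructor <;> linarith

/-- **Packing count.**  If the lattice points `p₀ + δ i • b 0 + δ j • b 1`, `(i, j) ∈ F`, all lie
in the box `∏ [lo m, hi m]`, then `|F| δ² ≤ (hi 0 - lo 0 + 4δ)(hi 1 - lo 1 + 4δ)`.
(The hypothesis `hlh` is only needed for `F = ∅`; see `packing_count_of_nonempty`.) -/
theorem packing_count (b : OrthonormalBasis (Fin 2) ℝ (EuclideanSpace ℝ (Fin 2)))
    (p₀ : EuclideanSpace ℝ (Fin 2)) (δ : ℝ) (hδ : 0 < δ) (lo hi : Fin 2 → ℝ)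
    (hlh : ∀ m, lo m ≤ hi m) (F : Finset (ℤ × ℤ))
    (hF : ∀ ij ∈ F, ∀ m : Fin 2, (p₀ + (δ * (ij.1 : ℝ)) • b 0 + (δ * (ij.2 : ℝ)) • b 1) m ∈
      Set.Icc (lo m) (hi m)) :
    (F.card : ℝ) * δ ^ 2 ≤ (hi 0 - lo 0 + 4 * δ) * (hi 1 - lo 1 + 4 * δ) := by
  have hA : 0 ≤ hi 0 - lo 0 + 4 * δ := by have := hlh 0; linarith
  have hB : 0 ≤ hi 1 - lo 1 + 4 * δ := by have := hlh 1; linarith
  have hU : volume (⋃ ij ∈ F, tile b p₀ δ ij) = ∑ ij ∈ F, volume (tile b p₀ δ ij) := by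
    apply measure_biUnion_finset
    · intro ij _ ij' _ hne
      exact tile_disjoint b p₀ δ hδ ij ij' hne
    · intro ij _
      exact measurableSet_tile b p₀ δ ij
  have hsub : (⋃ ij ∈ F, tile b p₀ δ ij) ⊆ {q : EuclideanSpace ℝ (Fin 2) | ∀ m, q m ∈
      Set.Icc ((fun m => lo m - 2 * δ) m) ((fun m => hi m + 2 * δ) m)} := by
    intro q hq
    simp only [Set.mem_iUnion] at hq
    obtain ⟨ij, hij, hq⟩ := hq
    exact tile_subset b p₀ δ hδ lo hi ij (hF ij hij) hq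
  have hle := measure_mono (μ := volume) hsub
  rw [hU, volume_box_Icc_mul] at hle
  simp only [volume_tile, Finset.sum_const, nsmul_eq_mul] at hle
  have e1 : (F.card : ENNReal) * (ENNReal.ofReal δ * ENNReal.ofReal δ) =
      ENNReal.ofReal ((F.card : ℝ) * δ ^ 2) := by
    rw [ENNReal.ofReal_mul (Nat.cast_nonneg _), ENNReal.ofReal_natCast, pow_two,
      ENNReal.ofReal_mul hδ.le]
  have e2 : ENNReal.ofReal (hi 0 + 2 * δ - (lo 0 - 2 * δ)) *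
      ENNReal.ofReal (hi 1 + 2 * δ - (lo 1 - 2 * δ)) =
      ENNReal.ofReal ((hi 0 - lo 0 + 4 * δ) * (hi 1 - lo 1 + 4 * δ)) := by
    rw [ENNReal.ofReal_mul hA]
    congr 2 <;> ring
  rw [e1, e2] at hle
  exact (ENNReal.ofReal_le_ofReal_iff (mul_nonneg hA hB)).mp hle

/-- `packing_count` for a nonempty family (no hypothesis on `lo`, `hi`). -/
theorem packing_count_of_nonempty (b : OrthonormalBasis (Fin 2) ℝ (EuclideanSpace ℝ (Fin 2)))
    (p₀ : EuclideanSpace ℝ (Fin 2)) (δ : ℝ) (hδ : 0 < δ) (lo hi : Fin 2 → ℝ)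
    (F : Finset (ℤ × ℤ)) (hne : F.Nonempty)
    (hF : ∀ ij ∈ F, ∀ m : Fin 2, (p₀ + (δ * (ij.1 : ℝ)) • b 0 + (δ * (ij.2 : ℝ)) • b 1) m ∈
      Set.Icc (lo m) (hi m)) :
    (F.card : ℝ) * δ ^ 2 ≤ (hi 0 - lo 0 + 4 * δ) * (hi 1 - lo 1 + 4 * δ) := by
  obtain ⟨ij, hij⟩ := hne
  refine packing_count b p₀ δ hδ lo hi (fun m => ?_) F hF
  have := hF ij hij m
  rw [Set.mem_Icc] at this
  linarith

end Crest.Agent.Helper8
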